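import Vale.Agent.P238.Main

/-!
The `ℓ₁` distortion of edit distance on binary words of length `n` is at least
a constant times `(log n)² / log log n`.
-/

namespace Vale.Agent.Results.P238.LogSquaredLower

open Vale.Agent.P238

theorem result :
    ∃ c : ℝ, 0 < c ∧ ∃ n₀ : ℕ, ∀ n ≥ n₀, ∀ (F : (Fin n → Bool) → lp (fun _ : ℕ => ℝ) 1) (A B : ℝ),
      (∀ x y, ‖F x - F y‖ ≤ A * ED (List.ofFn x) (List.ofFn y)) →
      (∀ x y, (ED (List.ofFn x) (List.ofFn y) : ℝ) ≤ B * ‖F x - F y‖) →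
      c * Real.log n ^ 2 / Real.log (Real.log n) ≤ A * B :=
  distortion_lower

end Vale.Agent.Results.P238.LogSquaredLower
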